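import Mathlib

/-!
P196: shared definitions and interfaces for the affirmative answer.

`X` is a two-dimensional subshift of finite type over a finite alphabet `A`, cut out by the
allowed `(w+1) × (w+1)` windows. The group `fullGroup k X` acts on `Fin k × X`.
-/

namespace Vale.Agent.P196

/-- The acting lattice. -/
abbrev V := ℤ × ℤ

/-- The shift: `(shiftFun v x) u = x (u + v)`. -/
def shiftFun {A : Type} (v : V) (x : V → A) : V → A := fun u => x (u + v)

/-- Presentation data of a subshift of finite type. -/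
structure SFT where
  A : Type
  [fintypeA : Fintype A]
  [decEqA : DecidableEq A]
  [topA : TopologicalSpace A]
  [discA : DiscreteTopology A]
  w : ℕ
  allowed : (Fin (w + 1) × Fin (w + 1) → A) → Prop

attribute [instance] SFT.fintypeA SFT.decEqA SFT.topA SFT.discA

namespace SFT

variable (S : SFT)

/-- The window of `x` with lower left corner `v`. -/
def window (x : V → S.A) (v : V) : Fin (S.w + 1) × Fin (S.w + 1) → S.A :=
  fun p => x (v.1 + (p.1 : ℕ), v.2 + (p.2 : ℕ))

/-- The configurations all of whose windows are allowed. -/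
def carrier : Set (V → S.A) := {x | ∀ v, S.allowed (S.window x v)}

/-- The points of the subshift. -/
abbrev X : Type := {x : V → S.A // x ∈ S.carrier}

lemma shiftFun_mem {x : V → S.A} (hx : x ∈ S.carrier) (v : V) :
    shiftFun v x ∈ S.carrier := by
  intro u
  have h := hx (u + v)
  have e : S.window (shiftFun v x) u = S.window x (u + v) := by
    funext p
    simp only [window, shiftFun, Prod.fst_add, Prod.snd_add]
    congr 1
    ext <;> simp <;> ring
  rw [e]
  exact h

/-- The shift by `v` on the subshift. -/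
def act (v : V) : Equiv.Perm S.X where
  toFun x := ⟨shiftFun v x.1, S.shiftFun_mem x.2 v⟩
  invFun x := ⟨shiftFun (-v) x.1, S.shiftFun_mem x.2 (-v)⟩
  left_inv x := by
    apply Subtype.ext
    funext u
    simp [shiftFun]
  right_inv x := by
    apply Subtype.ext
    funext u
    simp [shiftFun]

/-- The square window of radius `r` around the origin. -/
noncomputable def box (r : ℕ) : Finset V := Finset.Icc (-(r : ℤ), -(r : ℤ)) ((r : ℤ), (r : ℤ))

/-- `x` and `y` agree on `U`. -/
def AgreeOn (U : Finset V) (x y : S.X) : Prop := ∀ u ∈ U, x.1 u = y.1 u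

/-- A map on `X` depending only on the window of radius `r`. -/
def LocalWith {β : Type} (r : ℕ) (f : S.X → β) : Prop :=
  ∀ x y : S.X, S.AgreeOn (box r) x y → f x = f y

/-- A map on `X` depending only on some finite window. -/
def IsLocal {β : Type} (f : S.X → β) : Prop := ∃ r, S.LocalWith r f

/-- The permutation of `Fin k × X` applying the colour permutation `c x` over the point `x`. -/
def colouring {k : ℕ} (c : S.X → Equiv.Perm (Fin k)) : Equiv.Perm (Fin k × S.X) where
  toFun p := (c p.2 p.1, p.2)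
  invFun p := ((c p.2).symm p.1, p.2)
  left_inv p := by simp
  right_inv p := by simp

/-- The permutation of `Fin k × X` shifting the colour `i` by `t i`. -/
def translation {k : ℕ} (t : Fin k → V) : Equiv.Perm (Fin k × S.X) where
  toFun p := (p.1, S.act (t p.1) p.2)
  invFun p := (p.1, (S.act (t p.1)).symm p.2)
  left_inv p := by simp
  right_inv p := by simp

/-- The generators of the group: local even colourings and zero-sum translations. -/
def gens (k : ℕ) : Set (Equiv.Perm (Fin k × S.X)) :=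
  {g | ∃ c : S.X → Equiv.Perm (Fin k),
      S.IsLocal c ∧ (∀ x, Equiv.Perm.sign (c x) = 1) ∧ g = S.colouring c} ∪
  {g | ∃ t : Fin k → V, ∑ i, t i = 0 ∧ g = S.translation t}

/-- The group. -/
def fullGroup (k : ℕ) : Subgroup (Equiv.Perm (Fin k × S.X)) := Subgroup.closure (S.gens k)

/-- A permutation moving points by a locally constant shift and a local colour change. -/
def IsFullMap {k : ℕ} (g : Equiv.Perm (Fin k × S.X)) : Prop :=
  ∃ r : ℕ, ∀ i : Fin k, ∃ col : S.X → Fin k, ∃ d : S.X → V,
    S.LocalWith r col ∧ S.LocalWith r d ∧ ∀ x, g (i, x) = (col x, S.act (d x) x)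

/-! ### Dynamical hypotheses -/

/-- Nonempty, every finite pattern occurs in every configuration, and the shift is free. -/
structure MinimalFree : Prop where
  nonempty : Nonempty S.X
  minimal : ∀ x y : S.X, ∀ r : ℕ, ∃ v : V, S.AgreeOn (box r) (S.act v x) y
  free : ∀ x : S.X, ∀ v : V, S.act v x = x → v = 0

/-- A compatible system of periodic factors. -/
structure Odometer where
  Q : ℕ → ℕ
  Q_pos : ∀ n, 0 < Q n
  Q_dvd : ∀ n, Q n ∣ Q (n + 1)
  Q_strict : StrictMono Q
  pos : ∀ n, S.X → ZMod (Q n) × ZMod (Q n)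
  pos_local : ∀ n, S.IsLocal (pos n)
  pos_act : ∀ n v x, pos n (S.act v x) = pos n x + ((v.1 : ZMod (Q n)), (v.2 : ZMod (Q n)))
  pos_compat : ∀ n x,
    (ZMod.castHom (Q_dvd n) (ZMod (Q n)) (pos (n + 1) x).1,
      ZMod.castHom (Q_dvd n) (ZMod (Q n)) (pos (n + 1) x).2) = pos n x

variable {S}

/-- The fibre over a first coordinate. -/
def Odometer.fibre₁ (O : S.Odometer) (ξ : ∀ n, ZMod (O.Q n)) : Set S.X :=
  {x | ∀ n, (O.pos n x).1 = ξ n}

/-- The fibre over a second coordinate. -/
def Odometer.fibre₂ (O : S.Odometer) (η : ∀ n, ZMod (O.Q n)) : Set S.X :=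
  {x | ∀ n, (O.pos n x).2 = η n}

variable (S)

/-- The rectangle `|u.1| ≤ a`, `|u.2| ≤ b`. -/
noncomputable def rect (a b : ℕ) : Finset V :=
  Finset.Icc (-(a : ℤ), -(b : ℤ)) ((a : ℤ), (b : ℤ))

/-- The number of patterns on `U` occurring in `F`. -/
noncomputable def patternCount (F : Set S.X) (U : Finset V) : ℕ :=
  Nat.card ((fun x : S.X => fun u : U => x.1 u.1) '' F : Set (U → S.A))

/-- Band counting over a fibre of the first coordinate: outside the windows of half-width `w'`
around the finite set `E` of classes modulo `Q m`, the band `|i| ≤ R` is periodic modulo `Q n`;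
near `E` there are few patterns. -/
def BandCount (O : S.Odometer) (ξ : ∀ n, ZMod (O.Q n)) : Prop :=
  ∀ r : ℕ, ∀ ε : ℝ, 0 < ε → ∃ n m R ρ w' C : ℕ, ∃ E : Finset (ZMod (O.Q m)),
    r < R ∧ 2 * (w' + r + 1) ≤ ρ ∧ 10 * ρ < O.Q m ∧
    (∀ e ∈ E, ∀ e' ∈ E, e ≠ e' → ∀ d : ℤ, |d| ≤ 5 * ρ → e + (d : ZMod (O.Q m)) ≠ e') ∧
    (∀ z ∈ O.fibre₁ ξ, ∀ z' ∈ O.fibre₁ ξ, (O.pos m z).2 = (O.pos m z').2 →
      (∀ e ∈ E, ∀ d : ℤ, |d| ≤ w' → e + (d : ZMod (O.Q m)) ≠ (O.pos m z).2) →
      ∀ i i' : ℤ, |i| ≤ R → |i'| ≤ R → (O.Q n : ℤ) ∣ (i - i') →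
        S.AgreeOn (box r) (S.act (i, 0) z) (S.act (i', 0) z')) ∧
    (∀ e ∈ E, S.patternCount {z | z ∈ O.fibre₁ ξ ∧ (O.pos m z).2 = e}
      (rect (R + r) (2 * ρ + r)) ≤ C) ∧
    ((O.Q n : ℝ) * E.card) ≤ ε * ρ ∧
    ((O.Q n : ℝ) * O.Q m) ≤ ε * ((R : ℝ) ^ 2) ∧
    ((E.card : ℝ) * ρ * C) ≤ ε * R

/-- Strip counting over a fibre of the second coordinate. -/
def StripCount (O : S.Odometer) (η : ∀ n, ZMod (O.Q n)) : Prop :=
  ∀ r : ℕ, ∀ ε : ℝ, 0 < ε → ∃ R : ℕ, r < R ∧
    (S.patternCount (O.fibre₂ η) (rect r R) : ℝ) ≤ ε * R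

/-! ### Hypotheses for finite presentability -/

/-- A pattern on a finite set all of whose complete windows are allowed. -/
def Admissible (U : Finset V) (p : V → S.A) : Prop :=
  ∀ v : V, (∀ q : Fin (S.w + 1) × Fin (S.w + 1),
    (v.1 + (q.1 : ℕ), v.2 + (q.2 : ℕ)) ∈ U) → S.allowed (S.window p v)

/-- A Boolean observable supported on a finite set of cells. -/
structure Obs where
  supp : Finset V
  val : (V → S.A) → Bool
  dep : ∀ x y : V → S.A, (∀ u ∈ supp, x u = y u) → val x = val y

/-- The observable that the cell `u` carries the letter `c`. -/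
def cellObs (u : V) (c : S.A) : S.Obs where
  supp := {u}
  val x := decide (x u = c)
  dep x y h := by rw [h u (Finset.mem_singleton_self u)]

/-- Relations between observables forced by the local rules: `Rel false` says that the two commute,
`Rel true` that they are linked, that is, are one and the same event.
* `base`: both are supported in one window.
* `derived`: on a commuting set of cells `U`, the observable `o` is a function, on admissible
  patterns, of finitely many observables supported in `U`, each commuting with `o'`.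
* `exclusive`: linked observables `c`, `c'` supported in commuting sets of cells `U`, `W` separate
  `o` (supported in `U`) from `o'` (supported in `W`).
* `transport`: a linked copy commutes with the same observables.
* `same`: both are supported in a commuting set of cells and agree on its admissible patterns.
* `combine`: `o` on `U` and `o'` on `W` are the same function of linked observables. -/
inductive Rel : Bool → S.Obs → S.Obs → Prop
  | base (o o' : S.Obs) (v : V) :
      (∀ u ∈ o.supp ∪ o'.supp, v.1 ≤ u.1 ∧ u.1 ≤ v.1 + S.w ∧ v.2 ≤ u.2 ∧ u.2 ≤ v.2 + S.w) →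
      Rel false o o'
  | symm (b : Bool) (o o' : S.Obs) : Rel b o o' → Rel b o' o
  | derived (o o' : S.Obs) (ms : List S.Obs) (U : Finset V) :
      o.supp ⊆ U → (∀ m ∈ ms, m.supp ⊆ U) →
      (∀ a ∈ U, ∀ b ∈ U, ∀ c d : S.A, Rel false (S.cellObs a c) (S.cellObs b d)) →
      (∀ a ∈ o'.supp, ∀ b ∈ o'.supp, ∀ c d : S.A, Rel false (S.cellObs a c) (S.cellObs b d)) →
      (∀ a b : V → S.A, S.Admissible U a → S.Admissible U b →
        (∀ m ∈ ms, m.val a = m.val b) → o.val a = o.val b) →
      (∀ m ∈ ms, Rel false m o') → Rel false o o'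
  | exclusive (o o' c c' : S.Obs) (U W : Finset V) :
      o.supp ⊆ U → c.supp ⊆ U → o'.supp ⊆ W → c'.supp ⊆ W →
      (∀ a ∈ U, ∀ b ∈ U, ∀ l l' : S.A, Rel false (S.cellObs a l) (S.cellObs b l')) →
      (∀ a ∈ W, ∀ b ∈ W, ∀ l l' : S.A, Rel false (S.cellObs a l) (S.cellObs b l')) →
      (∀ a : V → S.A, S.Admissible U a → o.val a = true → c.val a = true) →
      (∀ a : V → S.A, S.Admissible W a → o'.val a = true → c'.val a = false) →
      Rel true c c' → Rel false o o'
  | transport (o o₁ o' : S.Obs) : Rel true o o₁ → Rel false o₁ o' → Rel false o o'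
  | same (o o' : S.Obs) (U : Finset V) :
      o.supp ⊆ U → o'.supp ⊆ U →
      (∀ a ∈ U, ∀ b ∈ U, ∀ c d : S.A, Rel false (S.cellObs a c) (S.cellObs b d)) →
      (∀ a : V → S.A, S.Admissible U a → o.val a = o'.val a) → Rel true o o'
  | combine (o o' : S.Obs) (ms : List (S.Obs × S.Obs)) (F : List Bool → Bool) (U W : Finset V) :
      o.supp ⊆ U → o'.supp ⊆ W → (∀ m ∈ ms, m.1.supp ⊆ U) → (∀ m ∈ ms, m.2.supp ⊆ W) →
      (∀ a ∈ U, ∀ b ∈ U, ∀ c d : S.A, Rel false (S.cellObs a c) (S.cellObs b d)) →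
      (∀ a ∈ W, ∀ b ∈ W, ∀ c d : S.A, Rel false (S.cellObs a c) (S.cellObs b d)) →
      (∀ a : V → S.A, S.Admissible U a → o.val a = F (ms.map fun m => m.1.val a)) →
      (∀ a : V → S.A, S.Admissible W a → o'.val a = F (ms.map fun m => m.2.val a)) →
      (∀ m ∈ ms, Rel true m.1 m.2) → Rel true o o'
  | trans (o o₁ o' : S.Obs) : Rel true o o₁ → Rel true o₁ o' → Rel true o o'

/-- Pairs of observables forced to commute by the local rules. -/
abbrev Com (o o' : S.Obs) : Prop := S.Rel false o o'

/-- Observables forced to be the same event by the local rules. -/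
abbrev Link (o o' : S.Obs) : Prop := S.Rel true o o'

/-- A finite set of cells all of whose pairs commute. -/
def Context (U : Finset V) : Prop :=
  ∀ a ∈ U, ∀ b ∈ U, ∀ c d : S.A, S.Com (S.cellObs a c) (S.cellObs b d)

/-- All cells commute. -/
def Rigid : Prop := ∀ (u v : V) (c d : S.A), S.Com (S.cellObs u c) (S.cellObs v d)

/-- The translation coinvariants modulo 2 of the clopen sets vanish. -/
def CoinvariantsModTwoTrivial : Prop :=
  ∀ z : Set S.X → ZMod 2,
    (∀ U W : Set S.X, IsClopen U → IsClopen W → Disjoint U W → z (U ∪ W) = z U + z W) →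
    (∀ (v : V) (U : Set S.X), IsClopen U → z (S.act v '' U) = z U) →
    ∀ U : Set S.X, IsClopen U → z U = 0

/-- Every local cocycle modulo 2 on the orbits is the coboundary of a local function. -/
def CocyclesModTwoTrivial : Prop :=
  ∀ c₁ c₂ : S.X → ZMod 2, S.IsLocal c₁ → S.IsLocal c₂ →
    (∀ x, c₁ (S.act (0, 1) x) + c₁ x = c₂ (S.act (1, 0) x) + c₂ x) →
    ∃ g : S.X → ZMod 2, S.IsLocal g ∧
      (∀ x, c₁ x = g (S.act (1, 0) x) + g x) ∧ (∀ x, c₂ x = g (S.act (0, 1) x) + g x)

end SFT

/-- Amenability, by Følner's condition as in the problem file. -/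
def Folner (G : Type) [Group G] : Prop :=
  ∀ K : Set G, K.Finite → ∀ ε : ℝ, 0 < ε → ∃ D : Set G, D.Finite ∧ D.Nonempty ∧
    ∀ g ∈ K, ((symmDiff ((g * ·) '' D) D).ncard : ℝ) < ε * D.ncard

/-! ### The interfaces -/

/-- Module A. -/
def AmenableStatement : Prop :=
  ∀ (S : SFT) (O : S.Odometer) (ξ η : ∀ n, ZMod (O.Q n)),
    S.MinimalFree → (O.fibre₁ ξ).Nonempty → S.BandCount O ξ →
    (O.fibre₂ η).Nonempty → S.StripCount O η →
    ∀ k : ℕ, Folner (S.fullGroup k)

/-- Module B. -/
def PresentationStatement : Prop :=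
  ∀ (S : SFT) (_ : S.Odometer), S.MinimalFree → S.Rigid → S.CoinvariantsModTwoTrivial → S.CocyclesModTwoTrivial →
    ∀ k : ℕ, 12 ≤ k → Group.IsFinitelyPresented (S.fullGroup k)

/-- Module C. -/
def SimpleStatement : Prop :=
  ∀ (S : SFT), S.MinimalFree → ∀ k : ℕ, 5 ≤ k →
    IsSimpleGroup (S.fullGroup k) ∧ Infinite (S.fullGroup k)

/-- Module D. -/
def TilingStatement : Prop :=
  ∃ (S : SFT) (O : S.Odometer) (ξ η : ∀ n, ZMod (O.Q n)),
    S.MinimalFree ∧ S.Rigid ∧ S.CoinvariantsModTwoTrivial ∧ S.CocyclesModTwoTrivial ∧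
    (O.fibre₁ ξ).Nonempty ∧ S.BandCount O ξ ∧ (O.fibre₂ η).Nonempty ∧ S.StripCount O η

/-- The modules give the affirmative answer to P196. -/
theorem answer_of_modules (hA : AmenableStatement) (hB : PresentationStatement)
    (hC : SimpleStatement) (hD : TilingStatement) :
    ∃ (G : Type) (_ : Group G), Infinite G ∧ Group.IsFinitelyPresented G ∧ IsSimpleGroup G ∧
      Folner G := by
  obtain ⟨S, O, ξ, η, hmf, hr, hco, hcy, h1, hb, h2, hs⟩ := hD
  obtain ⟨hsimple, hinf⟩ := hC S hmf 12 (by norm_num)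
  exact ⟨S.fullGroup 12, inferInstance, hinf, hB S O hmf hr hco hcy 12 le_rfl, hsimple,
    hA S O ξ η hmf h1 hb h2 hs 12⟩

end Vale.Agent.P196
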