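import Mathlib

/-!
P196: finitely presented groups without finite quotients have no nontrivial actions by
bounded displacements along the orbits of one bijection.

An action on `ℤ` is folded periodically beyond a window, which keeps the finitely many relators.
The germ of a periodic action at infinity maps to finite and to abelian groups, so it is trivial.
-/

namespace Vale.Agent.P196

open Equiv

universe u v

variable {G : Type u} [Group G]

/-- no nontrivial finite quotient -/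
def NoFin (G : Type u) [Group G] : Prop :=
  ∀ (Q : Type) [Group Q] [Finite Q] (f : G →* Q), ∀ g, f g = 1

/-- every element moves points a bounded amount -/
def Bdd (ρ : G →* Perm ℤ) : Prop := ∀ g, ∃ N : ℕ, ∀ x : ℤ, |ρ g x - x| ≤ N

/-- a homomorphism to the permutations of a finite type of any universe is trivial -/
lemma noFin_perm (h : NoFin G) {α : Type v} [Finite α] (f : G →* Perm α) (g : G) : f g = 1 := by
  obtain ⟨n, ⟨e⟩⟩ := Finite.exists_equiv_fin α
  have := h (Perm (Fin n)) (e.permCongrHom.toMonoidHom.comp f) g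
  rw [MonoidHom.comp_apply, MulEquiv.toMonoidHom_eq_coe, MonoidHom.coe_coe] at this
  exact (map_eq_one_iff _ e.permCongrHom.injective).1 this

/-- a periodic germ at infinity is trivial -/
lemma germ_trivial (h : NoFin G) (ρ : G →* Perm ℤ) (hb : Bdd ρ) (p : ℕ) [NeZero p]
    (hper : ∀ g, ∃ M : ℤ, ∀ x, M ≤ x → ρ g (x + p) = ρ g x + p) (g : G) :
    ∃ M : ℤ, ∀ x, M ≤ x → ρ g x = x := by
  choose M hM using hper
  have hk : ∀ g (k : ℕ) x, M g ≤ x → ρ g (x + k * p) = ρ g x + k * p := by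
    intro g k
    induction k with
    | zero => simp
    | succ k ih =>
      intro x hx
      have := hM g (x + k * p) (by nlinarith)
      rw [ih x hx] at this
      push_cast
      rw [add_mul, one_mul, ← add_assoc, this, add_assoc]
  obtain ⟨e, he⟩ : ∃ e : G → ZMod p → ℤ, ∀ g c,
      e g c = ρ g (M g + ((c - (M g : ZMod p)).val : ℤ)) - (M g + ((c - (M g : ZMod p)).val : ℤ)) :=
    ⟨_, fun _ _ => rfl⟩
  have spec : ∀ g x, M g ≤ x → ρ g x = x + e g x := by
    intro g x hx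
    rw [he]
    obtain ⟨r, hr⟩ : ∃ r : ℤ, r = M g + (((x : ZMod p) - (M g : ZMod p)).val : ℤ) := ⟨_, rfl⟩
    rw [← hr]
    have hv : (((x : ZMod p) - (M g : ZMod p)).val : ℤ) = (x - M g) % p := by
      rw [← Int.cast_sub, ZMod.val_intCast]
    obtain ⟨k, hk'⟩ : ∃ k : ℕ, (k : ℤ) = (x - M g) / p :=
      ⟨_, Int.toNat_of_nonneg (Int.ediv_nonneg (by omega) (by omega))⟩
    have hx' : x = r + k * p := by
      have := Int.emod_add_mul_ediv (x - M g) p
      rw [hr, hv, hk', mul_comm]; omega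
    rw [hx', hk g k r (by omega)]
    ring
  have pick : ∀ (B : ℤ) (c : ZMod p), ∃ x : ℤ, B ≤ x ∧ (x : ZMod p) = c := fun B c =>
    ⟨B + ((c - (B : ZMod p)).val : ℤ), by omega, by simp⟩
  have mul : ∀ g g' c, e (g * g') c = e g' c + e g (c + e g' c) := by
    intro g g' c
    obtain ⟨N, hN⟩ := hb g'
    obtain ⟨x, hx, rfl⟩ := pick (max (max (M (g * g')) (M g')) (M g + N)) c
    simp only [max_le_iff] at hx
    have e1 := spec (g * g') x (by omega)
    have e2 := spec g' x (by omega)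
    have h3 := abs_le.1 (hN x)
    have e3 := spec g (ρ g' x) (by omega)
    rw [map_mul, Perm.mul_apply, e3, e2, Int.cast_add] at e1
    linarith
  have one : ∀ c, e 1 c = 0 := by
    intro c
    have := mul 1 1 c
    rw [mul_one] at this
    obtain ⟨x, hx, rfl⟩ := pick (M 1) c
    have := spec 1 x hx
    simp at this
    omega
  have inv : ∀ g c, c + (e g c : ZMod p) + (e g⁻¹ (c + (e g c : ZMod p)) : ZMod p) = c := by
    intro g c
    have h0 := congrArg (Int.cast : ℤ → ZMod p) (mul g⁻¹ g c)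
    rw [inv_mul_cancel, one] at h0
    push_cast at h0
    linear_combination -h0
  obtain ⟨σ, hσ⟩ : ∃ σ : G →* Perm (ZMod p), ∀ g c, σ g c = c + (e g c : ZMod p) :=
    ⟨MonoidHom.mk' (fun g => ⟨fun c => c + (e g c : ZMod p), fun c => c + (e g⁻¹ c : ZMod p),
      fun c => inv g c, fun c => by simpa using inv g⁻¹ c⟩) (fun g g' => by
        ext c
        simp only [Equiv.coe_fn_mk, Perm.mul_apply, mul, Int.cast_add]
        ring), fun _ _ => rfl⟩
  have zero_mod : ∀ g c, (e g c : ZMod p) = 0 := fun g c => by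
    have := hσ g c
    rw [noFin_perm h σ g, Perm.one_apply] at this
    simpa using this
  have zero : ∀ g c, e g c = 0 := by
    intro g c
    obtain ⟨m, hm⟩ : ∃ m : ℕ, m = (e g c).natAbs + 1 := ⟨_, rfl⟩
    haveI : NeZero m := ⟨by omega⟩
    have := h (Multiplicative (ZMod m))
      (MonoidHom.mk' (fun g => Multiplicative.ofAdd ((e g c : ℤ) : ZMod m)) fun a b => by
        rw [mul, zero_mod b c, add_zero, Int.cast_add, add_comm, ofAdd_add]) g
    simp only [MonoidHom.mk'_apply, ofAdd_eq_one, ZMod.intCast_zmod_eq_zero_iff_dvd] at this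
    exact Int.eq_zero_of_dvd_of_natAbs_lt_natAbs this (by simp only [Int.natAbs_natCast]; omega)
  exact ⟨M g, fun x hx => by rw [spec g x hx, zero, add_zero]⟩

/-- displacement bound for words -/
lemma word_bound {n : ℕ} (τ : FreeGroup (Fin n) →* Perm ℤ) (D : ℕ)
    (hD : ∀ s x, |τ (FreeGroup.mk [s]) x - x| ≤ D) :
    ∀ w x, |τ (FreeGroup.mk w) x - x| ≤ (w.length * D : ℕ) := by
  intro w
  induction w with
  | nil => intro x; simp [← FreeGroup.one_eq_mk]
  | cons s w ih =>
    intro x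
    have e : FreeGroup.mk (s :: w) = FreeGroup.mk [s] * FreeGroup.mk w := by
      rw [FreeGroup.mul_mk]; rfl
    rw [e, map_mul, Perm.mul_apply]
    have h1 := abs_le.1 (ih x)
    have h2 := abs_le.1 (hD s (τ (FreeGroup.mk w) x))
    rw [List.length_cons, abs_le]
    push_cast at h1 ⊢
    constructor <;> nlinarith

/-- An action can be replaced by one that is unchanged up to `a` on the generators and is trivial
far to the right. -/
lemma fold_right (h : NoFin G) {n : ℕ} (φ : FreeGroup (Fin n) →* G) (hφ : Function.Surjective φ)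
    (S : Set (FreeGroup (Fin n))) (hS : S.Finite) (hker : Subgroup.normalClosure S = φ.ker)
    (ρ : G →* Perm ℤ) (hb : Bdd ρ) (a : ℤ) :
    ∃ ρ' : G →* Perm ℤ, Bdd ρ' ∧
      (∀ i x, x ≤ a → ρ' (φ (FreeGroup.of i)) x = ρ (φ (FreeGroup.of i)) x) ∧
      ∀ g, ∃ M : ℤ, ∀ x, M ≤ x → ρ' g x = x := by
  classical
  obtain ⟨τ, hτ⟩ : ∃ τ : FreeGroup (Fin n) →* Perm ℤ, τ = ρ.comp φ := ⟨_, rfl⟩
  choose Nb hNb using fun s : Fin n × Bool => hb (φ (FreeGroup.mk [s]))
  obtain ⟨D, hDdef⟩ : ∃ D, D = Finset.univ.sup Nb := ⟨_, rfl⟩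
  have hD : ∀ s x, |τ (FreeGroup.mk [s]) x - x| ≤ (D : ℤ) := fun s x => by
    refine le_trans (by simpa [hτ] using hNb s x) (Int.ofNat_le.2 ?_)
    exact hDdef ▸ Finset.le_sup (Finset.mem_univ s)
  obtain ⟨L, hL⟩ : ∃ L, L = hS.toFinset.sup (fun r => r.toWord.length) + 1 := ⟨_, rfl⟩
  obtain ⟨R, hR⟩ : ∃ R, R = L * D := ⟨_, rfl⟩
  have hDR : D ≤ R := hR ▸ Nat.le_mul_of_pos_left D (by omega)
  obtain ⟨d, hd⟩ : ∃ d : Fin n × Bool → ℤ → ℤ, ∀ s x, d s x = τ (FreeGroup.mk [s]) x - x :=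
    ⟨_, fun _ _ => rfl⟩
  -- two equal windows
  obtain ⟨c, hc⟩ : ∃ c : ℕ → ℤ, ∀ k, c k = a + R + 1 + (2 * R + 1) * k := ⟨_, fun _ => rfl⟩
  have hfin : (Set.Icc (-(D : ℤ)) D).Finite := Set.finite_Icc _ _
  haveI : Finite (Set.Icc (-(D : ℤ)) D) := hfin.to_subtype
  obtain ⟨pat, hpat⟩ : ∃ pat : ℕ → (Fin n × Bool) × Fin (2 * R + 1) → Set.Icc (-(D : ℤ)) D,
      ∀ k sj, (pat k sj : ℤ) = d sj.1 (c k + (sj.2 : ℕ) - R) :=
    ⟨fun k sj => ⟨d sj.1 (c k + (sj.2 : ℕ) - R), by
      rw [Set.mem_Icc, ← abs_le, hd]; exact hD _ _⟩, fun _ _ => rfl⟩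
  obtain ⟨k1, k2, hne, heq⟩ := Finite.exists_ne_map_eq_of_infinite pat
  wlog hlt : k1 < k2 generalizing k1 k2
  · exact this k2 k1 hne.symm heq.symm (by omega)
  obtain ⟨m, hm⟩ : ∃ m, m = c k1 := ⟨_, rfl⟩
  obtain ⟨p, hp⟩ : ∃ p, p = (2 * R + 1) * (k2 - k1) := ⟨_, rfl⟩
  have hpR : R < p := by
    have : (2 * R + 1) * 1 ≤ p := hp ▸ Nat.mul_le_mul_left _ (by omega)
    omega
  haveI : NeZero p := ⟨by omega⟩
  have hm2 : c k2 = m + p := by
    rw [hm, hp, hc, hc]
    push_cast [Nat.cast_sub hlt.le]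
    ring
  have ham : a < m := by
    rw [hm, hc]
    have : (0 : ℤ) ≤ (2 * R + 1) * k1 := by positivity
    omega
  have same : ∀ s (j : ℤ), |j| ≤ R → d s (m + j) = d s (m + p + j) := by
    intro s j hj
    rw [abs_le] at hj
    have h1 := congrArg Subtype.val (congrFun heq (s, (⟨(j + R).toNat, by omega⟩ : Fin (2 * R + 1))))
    rw [hpat, hpat] at h1
    simp only [hm2, ← hm, Int.toNat_of_nonneg (show (0 : ℤ) ≤ j + R by omega)] at h1
    rw [show m + (j + R) - R = m + j by ring, show m + (p : ℤ) + (j + R) - R = m + p + j by ring]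
      at h1
    exact h1
  obtain ⟨fd, hfd⟩ : ∃ fd : ℤ → ℤ, ∀ x, fd x = if x < m then x else m + (x - m) % p :=
    ⟨_, fun _ => rfl⟩
  have mv : ∀ s x (j : ℤ), |j| ≤ R → d s (fd (x + j)) = d s (fd x + j) := by
    intro s x j hj
    have hj' := abs_le.1 hj
    rw [hfd, hfd]
    by_cases hx : x < m
    · by_cases hy : x + j < m
      · simp [hx, hy]
      · rw [if_neg hy, if_pos hx, Int.emod_eq_of_lt (by omega) (by omega)]
        ring_nf
    · rw [if_neg hx]
      obtain ⟨r, hr⟩ : ∃ r, r = (x - m) % p := ⟨_, rfl⟩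
      have hr0 : 0 ≤ r := hr ▸ Int.emod_nonneg _ (by omega)
      have hrp : r < p := hr ▸ Int.emod_lt_of_pos _ (by omega)
      obtain ⟨q, hq⟩ : ∃ q, q = (x - m) / p := ⟨_, rfl⟩
      have hxq : x = m + r + p * q := by
        have := Int.emod_add_mul_ediv (x - m) p
        rw [← hr, ← hq] at this; omega
      rw [← hr]
      have hq0 : 0 ≤ q := hq ▸ Int.ediv_nonneg (by omega) (by omega)
      by_cases hy : x + j < m
      · rw [if_pos hy]
        have : q = 0 := by nlinarith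
        rw [hxq, this]; ring_nf
      · rw [if_neg hy, show x + j - m = r + j + p * q by omega, Int.add_mul_emod_self_left]
        rcases lt_or_ge (r + j) 0 with h1 | h1
        · rw [← Int.add_emod_right, Int.emod_eq_of_lt (by omega) (by omega),
            show m + (r + j + (p : ℤ)) = m + p + (r + j) by ring,
            ← same s (r + j) (abs_le.2 (by omega))]
          ring_nf
        · rcases lt_or_ge (r + j) p with h2 | h2
          · rw [Int.emod_eq_of_lt h1 h2]; ring_nf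
          · rw [← Int.sub_emod_right, Int.emod_eq_of_lt (by omega) (by omega),
              same s (r + j - p) (abs_le.2 (by omega))]
            ring_nf
  -- the folded generators
  have dR : ∀ s x, |d s x| ≤ R := fun s x => by
    rw [hd]; exact le_trans (hD s x) (Int.ofNat_le.2 hDR)
  have cancel : ∀ i b x, x + d (i, b) (fd x) + d (i, !b) (fd (x + d (i, b) (fd x))) = x := by
    intro i b x
    rw [mv _ _ _ (dR _ _), hd (i, !b), hd (i, b)]
    have e : FreeGroup.mk [(i, !b)] * FreeGroup.mk [(i, b)] = 1 := by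
      rw [show FreeGroup.mk [(i, !b)] = (FreeGroup.mk [(i, b)])⁻¹ by
        simp [FreeGroup.inv_mk, FreeGroup.invRev]]
      exact inv_mul_cancel _
    have := congrArg (fun w => τ w (fd x)) e
    simp only [map_mul, Perm.mul_apply, map_one, Perm.one_apply] at this
    rw [show fd x + (τ (FreeGroup.mk [(i, b)]) (fd x) - fd x)
      = τ (FreeGroup.mk [(i, b)]) (fd x) by ring, this]
    ring
  obtain ⟨f, hf⟩ : ∃ f : Fin n → Perm ℤ, ∀ i, (∀ x, f i x = x + d (i, true) (fd x)) ∧
      ∀ x, (f i).symm x = x + d (i, false) (fd x) :=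
    ⟨fun i => ⟨fun x => x + d (i, true) (fd x), fun x => x + d (i, false) (fd x),
      fun x => by simpa using cancel i true x, fun x => by simpa using cancel i false x⟩,
      fun i => ⟨fun _ => rfl, fun _ => rfl⟩⟩
  obtain ⟨T, hT⟩ : ∃ T : FreeGroup (Fin n) →* Perm ℤ, T = FreeGroup.lift f := ⟨_, rfl⟩
  have hT1 : ∀ s x, T (FreeGroup.mk [s]) x = x + d s (fd x) := by
    rintro ⟨i, b⟩ x
    cases b <;> simp [hT, FreeGroup.lift_mk, hf, Perm.inv_def]
  have hTD : ∀ s x, |T (FreeGroup.mk [s]) x - x| ≤ (D : ℤ) := fun s x => by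
    rw [hT1, add_sub_cancel_left, hd]; exact hD s _
  have track : ∀ w : List (Fin n × Bool), w.length ≤ L → ∀ x,
      T (FreeGroup.mk w) x - x = τ (FreeGroup.mk w) (fd x) - fd x := by
    intro w
    induction w with
    | nil => intro _ x; simp [← FreeGroup.one_eq_mk]
    | cons s w ih =>
      intro hw x
      have e : FreeGroup.mk (s :: w) = FreeGroup.mk [s] * FreeGroup.mk w := by
        rw [FreeGroup.mul_mk]; rfl
      simp only [List.length_cons] at hw
      obtain ⟨j, hj⟩ : ∃ j, j = T (FreeGroup.mk w) x - x := ⟨_, rfl⟩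
      have hjR : |j| ≤ R := hj ▸ le_trans (word_bound T D hTD w x)
        (Int.ofNat_le.2 (hR ▸ Nat.mul_le_mul_right D (by omega)))
      have ihx := ih (by omega) x
      rw [e, map_mul, map_mul, Perm.mul_apply, Perm.mul_apply, hT1,
        show T (FreeGroup.mk w) x = x + j by omega, mv s x j hjR, hd,
        show fd x + j = τ (FreeGroup.mk w) (fd x) by omega]
      omega
  have hk : φ.ker ≤ T.ker := by
    rw [← hker]
    refine Subgroup.normalClosure_le_normal fun r hr => MonoidHom.mem_ker.2 (Equiv.ext fun x => ?_)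
    have hlen : r.toWord.length ≤ L := by
      have := Finset.le_sup (f := fun r : FreeGroup (Fin n) => r.toWord.length)
        (hS.mem_toFinset.2 hr)
      omega
    have := track r.toWord hlen x
    rw [FreeGroup.mk_toWord] at this
    have hr1 : φ r = 1 := MonoidHom.mem_ker.1 (hker ▸ Subgroup.subset_normalClosure hr)
    have h1 : τ r (fd x) = fd x := by simp [hτ, hr1]
    rw [h1] at this
    simp only [Perm.one_apply]
    omega
  obtain ⟨ρ', hρ'⟩ : ∃ ρ' : G →* Perm ℤ, ∀ w, ρ' (φ w) = T w :=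
    ⟨φ.liftOfSurjective hφ ⟨T, hk⟩, fun w => by
      simp [MonoidHom.liftOfRightInverse_comp_apply]⟩
  have lift_word : ∀ g, ∃ w, φ (FreeGroup.mk w) = g := fun g => by
    obtain ⟨v, rfl⟩ := hφ g
    exact ⟨v.toWord, by rw [FreeGroup.mk_toWord]⟩
  have hb' : Bdd ρ' := by
    intro g
    obtain ⟨w, rfl⟩ := lift_word g
    exact ⟨w.length * D, fun x => by rw [hρ']; exact word_bound T D hTD w x⟩
  refine ⟨ρ', hb', fun i x hx => ?_, germ_trivial h ρ' hb' p fun g => ?_⟩
  · have e : FreeGroup.of i = FreeGroup.mk [(i, true)] := rfl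
    rw [hρ', e, hT1, hfd, if_pos (by omega), hd, hτ]
    simp
  · obtain ⟨w, rfl⟩ := lift_word g
    refine ⟨m + (w.length * D : ℕ), ?_⟩
    rw [hρ']
    clear hρ' hb'
    induction w with
    | nil => intro x _; simp [← FreeGroup.one_eq_mk]
    | cons s w ih =>
      intro x hx
      have e : FreeGroup.mk (s :: w) = FreeGroup.mk [s] * FreeGroup.mk w := by
        rw [FreeGroup.mul_mk]; rfl
      simp only [List.length_cons] at hx
      push_cast at hx
      have hxw : m + ((w.length * D : ℕ) : ℤ) ≤ x := by push_cast; nlinarith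
      have hb2 := abs_le.1 (word_bound T D hTD w x)
      push_cast at hb2
      rw [e, map_mul, Perm.mul_apply, Perm.mul_apply, ih x hxw, hT1, hT1]
      obtain ⟨y, hy⟩ : ∃ y, y = T (FreeGroup.mk w) x := ⟨_, rfl⟩
      rw [← hy] at hb2 ⊢
      have hym : m ≤ y := by nlinarith
      rw [hfd, hfd, if_neg (by omega), if_neg (by omega),
        show y + (p : ℤ) - m = y - m + p by ring, Int.add_emod_right]
      ring

/-- the statement on `ℤ` -/
lemma int_trivial (h : NoFin G) (hfp : Group.IsFinitelyPresented G) (ρ : G →* Perm ℤ)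
    (hb : Bdd ρ) (g : G) : ρ g = 1 := by
  obtain ⟨n, φ, hφ, S, hS, hker⟩ := hfp.out
  suffices hgen : ∀ i, ρ (φ (FreeGroup.of i)) = 1 by
    obtain ⟨w, rfl⟩ := hφ g
    have : ρ.comp φ = 1 := FreeGroup.ext_hom _ _ fun i => hgen i
    exact DFunLike.congr_fun this w
  intro i
  refine Equiv.ext fun a => ?_
  obtain ⟨ρ1, hb1, hag1, hfix1⟩ := fold_right h φ hφ S hS hker ρ hb a
  choose M1 hM1 using fun i => hfix1 (φ (FreeGroup.of i))
  obtain ⟨ρn, hρn⟩ : ∃ ρn : G →* Perm ℤ, ∀ g x, ρn g x = -ρ1 g (-x) :=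
    ⟨(Equiv.neg ℤ).permCongrHom.toMonoidHom.comp ρ1, fun g x => by
      simp [Equiv.permCongrHom, Equiv.permCongr_apply]⟩
  have hbn : Bdd ρn := fun g => by
    obtain ⟨N, hN⟩ := hb1 g
    refine ⟨N, fun x => ?_⟩
    have := hN (-x)
    rw [hρn, ← abs_neg]
    simpa [sub_eq_add_neg, add_comm] using this
  obtain ⟨B, hB⟩ : ∃ B : ℕ, B = a.natAbs + ∑ j, (M1 j).natAbs := ⟨_, rfl⟩
  have hBj : ∀ j, (M1 j).natAbs ≤ B := fun j => by
    have := Finset.single_le_sum (f := fun j => (M1 j).natAbs) (fun _ _ => Nat.zero_le _)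
      (Finset.mem_univ j)
    omega
  obtain ⟨ρ2, -, hag2, hfix2⟩ := fold_right h φ hφ S hS hker ρn hbn (B : ℤ)
  choose M2 hM2 using fun i => hfix2 (φ (FreeGroup.of i))
  obtain ⟨C, hC⟩ : ∃ C : ℕ, C = B + ∑ j, (M2 j).natAbs := ⟨_, rfl⟩
  have hCj : ∀ j, (M2 j).natAbs ≤ C := fun j => by
    have := Finset.single_le_sum (f := fun j => (M2 j).natAbs) (fun _ _ => Nat.zero_le _)
      (Finset.mem_univ j)
    omega
  have out : ∀ j x, x ∉ Set.Icc (-(C : ℤ)) C → ρ2 (φ (FreeGroup.of j)) x = x := by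
    intro j x hx
    have := hBj j
    have := hCj j
    simp only [Set.mem_Icc, not_and_or, not_le] at hx
    rcases hx with hx | hx
    · rw [hag2 j x (by omega), hρn, hM1 j (-x) (by omega), neg_neg]
    · exact hM2 j x (by omega)
  have outg : ∀ w x, x ∉ Set.Icc (-(C : ℤ)) C → ρ2 (φ w) x = x := by
    intro w
    induction w using FreeGroup.induction_on with
    | C1 => simp
    | of j => exact out j
    | inv_of j hj =>
      intro x hx
      rw [map_inv, map_inv, Perm.inv_eq_iff_eq, hj x hx]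
    | mul u v hu hv =>
      intro x hx
      rw [map_mul, map_mul, Perm.mul_apply, hv x hx, hu x hx]
  have inv : ∀ g x, x ∈ Set.Icc (-(C : ℤ)) C ↔ ρ2 g x ∈ Set.Icc (-(C : ℤ)) C := by
    intro g x
    obtain ⟨w, rfl⟩ := hφ g
    constructor
    · intro hx
      by_contra hy
      have := outg w _ hy
      rw [(ρ2 (φ w)).injective this] at hy
      exact hy hx
    · intro hy
      by_contra hx
      rw [outg w x hx] at hy
      exact hx hy
  haveI : Finite (Set.Icc (-(C : ℤ)) C) := (Set.finite_Icc _ _).to_subtype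
  obtain ⟨σ, hσ⟩ : ∃ σ : G →* Perm (Set.Icc (-(C : ℤ)) C), ∀ g x, (σ g x : ℤ) = ρ2 g x :=
    ⟨MonoidHom.mk' (fun g => (ρ2 g).subtypePerm (fun x => (inv g x).symm)) (fun g g' => by
      ext x; simp only [map_mul]; rfl), fun g x => rfl⟩
  have ha : -a ∈ Set.Icc (-(C : ℤ)) C := by simp only [Set.mem_Icc]; omega
  have h2 : ρ2 (φ (FreeGroup.of i)) (-a) = -a := by
    rw [← hσ _ ⟨-a, ha⟩, noFin_perm h σ, Perm.one_apply]
  rw [hag2 i (-a) (by omega), hρn, neg_neg, neg_inj, hag1 i a le_rfl] at h2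
  rw [h2, Perm.one_apply]

/-- the statement for any bijection of any set -/
theorem orbit_trivial (h : NoFin G) (hfp : Group.IsFinitelyPresented G) {X : Type v}
    (φ : Perm X) (ρ : G →* Perm X)
    (hρ : ∀ g, ∃ N : ℕ, ∀ x, ∃ k : ℤ, |k| ≤ N ∧ ρ g x = (φ ^ k) x) (g : G) : ρ g = 1 := by
  refine Equiv.ext fun x => ?_
  rw [Perm.one_apply]
  by_cases hinj : Function.Injective fun k : ℤ => (φ ^ k) x
  · have hex : ∀ g (k : ℤ), ∃ m : ℤ, (φ ^ m) x = ρ g ((φ ^ k) x) := fun g k => by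
      obtain ⟨N, hN⟩ := hρ g
      obtain ⟨j, -, hj⟩ := hN ((φ ^ k) x)
      exact ⟨j + k, by rw [hj, zpow_add, Perm.mul_apply]⟩
    choose π hπ using hex
    have uniq : ∀ g k m, (φ ^ m) x = ρ g ((φ ^ k) x) → π g k = m := fun g k m hm =>
      hinj (show (φ ^ π g k) x = (φ ^ m) x by rw [hπ, hm])
    have hmul : ∀ g g' k, π (g * g') k = π g (π g' k) := fun g g' k =>
      uniq _ _ _ (by rw [hπ, hπ, map_mul, Perm.mul_apply])
    have hone : ∀ k, π 1 k = k := fun k => uniq _ _ _ (by simp)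
    obtain ⟨P, hP⟩ : ∃ P : G →* Perm ℤ, ∀ g k, P g k = π g k :=
      ⟨MonoidHom.mk' (fun g => ⟨π g, π g⁻¹, fun k => by rw [← hmul, inv_mul_cancel, hone],
        fun k => by rw [← hmul, mul_inv_cancel, hone]⟩) (fun g g' => Equiv.ext (hmul g g')),
        fun _ _ => rfl⟩
    have hb : Bdd P := fun g => by
      obtain ⟨N, hN⟩ := hρ g
      refine ⟨N, fun k => ?_⟩
      obtain ⟨j, hj, hj'⟩ := hN ((φ ^ k) x)
      rw [hP, uniq g k (j + k) (by rw [hj', zpow_add, Perm.mul_apply]), add_sub_cancel_right]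
      exact hj
    have h0 := hπ g 0
    rw [← hP, int_trivial h hfp P hb g] at h0
    simpa using h0.symm
  · obtain ⟨k1, k2, he, hne⟩ := Function.not_injective_iff.1 hinj
    obtain ⟨q, hq0, hq⟩ : ∃ q : ℤ, 0 < q ∧ (φ ^ q) x = x := by
      have h1 : ∀ u v : ℤ, (φ ^ u) x = (φ ^ v) x → (φ ^ (u - v)) x = x := fun u v huv => by
        have := congrArg (φ ^ (-v) : Perm X) huv
        rwa [← Perm.mul_apply, ← zpow_add, ← Perm.mul_apply, ← zpow_add, neg_add_cancel,
          zpow_zero, Perm.one_apply, neg_add_eq_sub] at this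
      rcases lt_or_gt_of_ne hne with hlt | hlt
      · exact ⟨k2 - k1, by omega, h1 _ _ he.symm⟩
      · exact ⟨k1 - k2, by omega, h1 _ _ he⟩
    obtain ⟨O, hO⟩ : ∃ O : Set X, O = Set.range fun k : ℤ => (φ ^ k) x := ⟨_, rfl⟩
    haveI : Finite O := by
      refine Set.Finite.to_subtype ((Set.finite_Ico (0 : ℤ) q).image (fun k : ℤ => (φ ^ k) x)
        |>.subset ?_)
      rw [hO]
      rintro _ ⟨k, rfl⟩
      refine ⟨k % q, ⟨Int.emod_nonneg _ (by omega), Int.emod_lt_of_pos _ hq0⟩, ?_⟩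
      have hfix : ∀ t : ℤ, (φ ^ (q * t)) x = x := fun t => by
        rw [zpow_mul]; exact Perm.zpow_apply_eq_self_of_apply_eq_self hq t
      show (φ ^ (k % q)) x = (φ ^ k) x
      conv_rhs => rw [← Int.emod_add_mul_ediv k q, zpow_add, Perm.mul_apply, hfix]
    have mem : ∀ g y, y ∈ O → ρ g y ∈ O := by
      intro g y hy
      rw [hO] at hy ⊢
      obtain ⟨k, rfl⟩ := hy
      obtain ⟨N, hN⟩ := hρ g
      obtain ⟨j, -, hj⟩ := hN ((φ ^ k) x)
      refine ⟨j + k, ?_⟩
      show (φ ^ (j + k)) x = _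
      rw [hj, zpow_add, Perm.mul_apply]
    have mem' : ∀ g y, ρ g y ∈ O ↔ y ∈ O := fun g y => ⟨fun hy => by
      simpa [← Perm.mul_apply, ← map_mul] using mem g⁻¹ _ hy, mem g y⟩
    obtain ⟨σ, hσ⟩ : ∃ σ : G →* Perm O, ∀ g y, (σ g y : X) = ρ g y :=
      ⟨MonoidHom.mk' (fun g => (ρ g).subtypePerm (mem' g)) (fun g g' => by
        ext y; simp only [map_mul]; rfl), fun g y => rfl⟩
    have hx : x ∈ O := hO ▸ ⟨0, by simp⟩
    rw [← hσ g ⟨x, hx⟩, noFin_perm h σ, Perm.one_apply]

end Vale.Agent.P196
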