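import Vale.Agent.P196.Defs
import Vale.Agent.P196.Simple.Main

/-!
P196, module C: the group of the subshift is simple and infinite.
-/

namespace Vale.Agent.P196.Simple

open scoped Classical
open Equiv

noncomputable section

variable (S : SFT)

/-- The shift as an additive action. -/
@[reducible] def shiftAction : AddAction V S.X where
  vadd v x := S.act v x
  zero_vadd x := by
    apply Subtype.ext
    funext u
    show x.1 (u + 0) = x.1 u
    rw [add_zero]
  add_vadd v w x := by
    apply Subtype.ext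
    funext u
    show x.1 (u + (v + w)) = x.1 (u + v + w)
    rw [add_assoc]

attribute [local instance] shiftAction

lemma continuousConstVAdd : ContinuousConstVAdd V S.X :=
  ⟨fun v => by
    have h : Continuous fun x : S.X => fun u : V => x.1 (u + v) :=
      continuous_pi fun u => (continuous_apply (u + v)).comp continuous_subtype_val
    exact h.subtype_mk _⟩

lemma isClosed_carrier : IsClosed S.carrier := by
  have e : S.carrier = ⋂ v, (fun x => S.window x v) ⁻¹' {p | S.allowed p} := by
    ext x; simp [SFT.carrier]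
  rw [e]
  exact isClosed_iInter fun v =>
    (isClosed_discrete _).preimage (continuous_pi fun p => continuous_apply _)

lemma mem_box {r : ℕ} {u : V} : u ∈ SFT.box r ↔ u.1.natAbs ≤ r ∧ u.2.natAbs ≤ r := by
  simp only [SFT.box, Finset.mem_Icc, Prod.le_def]
  omega

/-- The configurations agreeing with `y` on a square form an open set. -/
lemma isOpen_cyl (r : ℕ) (y : S.X) : IsOpen {z : S.X | S.AgreeOn (SFT.box r) z y} := by
  have e : {z : S.X | S.AgreeOn (SFT.box r) z y} =
      ⋂ u ∈ SFT.box r, (fun z : S.X => z.1 u) ⁻¹' {y.1 u} := by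
    ext z; simp [SFT.AgreeOn]
  rw [e]
  exact isOpen_biInter_finset fun u _ =>
    (isOpen_discrete _).preimage ((continuous_apply u).comp continuous_subtype_val)

/-- These sets form a neighbourhood basis. -/
lemma exists_cyl {U : Set S.X} (hU : IsOpen U) {y : S.X} (hy : y ∈ U) :
    ∃ r, {z : S.X | S.AgreeOn (SFT.box r) z y} ⊆ U := by
  obtain ⟨O, hO, rfl⟩ := isOpen_induced_iff.1 hU
  obtain ⟨I, W, hW, hsub⟩ := isOpen_pi_iff.1 hO y.1 hy
  refine ⟨I.sup fun u => max u.1.natAbs u.2.natAbs, fun z hz => hsub fun u hu => ?_⟩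
  have hm : u ∈ SFT.box (I.sup fun u => max u.1.natAbs u.2.natAbs) := by
    have := Finset.le_sup (f := fun u : V => max u.1.natAbs u.2.natAbs) hu
    rw [mem_box]; omega
  rw [show z.1 u = y.1 u from hz u hm]
  exact (hW u hu).2

lemma isLocallyConstant_of_isLocal {β : Type} {f : S.X → β} (h : S.IsLocal f) :
    IsLocallyConstant f := by
  obtain ⟨r, hr⟩ := h
  exact (IsLocallyConstant.iff_exists_open f).2 fun y =>
    ⟨_, isOpen_cyl S r y, fun u _ => rfl, fun z hz => hr z y hz⟩

lemma isLocal_of_isLocallyConstant [CompactSpace S.X] {β : Type} {f : S.X → β}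
    (h : IsLocallyConstant f) : S.IsLocal f := by
  choose r hr using fun y : S.X =>
    exists_cyl S (h.isOpen_fiber (f y)) (show y ∈ {z | f z = f y} from rfl)
  obtain ⟨s, hs⟩ := isCompact_univ.elim_finite_subcover
    (fun y => {z : S.X | S.AgreeOn (SFT.box (r y)) z y}) (fun y => isOpen_cyl S (r y) y)
    fun y _ => Set.mem_iUnion.2 ⟨y, fun u _ => rfl⟩
  refine ⟨s.sup r, fun a b hab => ?_⟩
  obtain ⟨y, hy, hay⟩ := Set.mem_iUnion₂.1 (hs (Set.mem_univ a))
  have hby : S.AgreeOn (SFT.box (r y)) b y := fun u hu => by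
    have hle : r y ≤ s.sup r := Finset.le_sup hy
    have hu' : u ∈ SFT.box (s.sup r) := by
      rw [mem_box] at hu ⊢; omega
    exact (hab u hu').symm.trans (hay u hu)
  exact (hr y hay).trans (hr y hby).symm

lemma fullGroup_eq [CompactSpace S.X] (k : ℕ) : S.fullGroup k = G k V S.X := by
  show Subgroup.closure (S.gens k) = Subgroup.closure _
  congr 1
  ext g
  constructor
  · rintro (⟨c, hc, hs, rfl⟩ | ⟨t, ht, rfl⟩)
    · exact Or.inl ⟨⟨fun x => ⟨c x, Perm.mem_alternatingGroup.2 (hs x)⟩,
        (IsLocallyConstant.iff_exists_open _).2 fun x => by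
          obtain ⟨U, hU, hx, hUc⟩ :=
            (IsLocallyConstant.iff_exists_open c).1 (isLocallyConstant_of_isLocal S hc) x
          exact ⟨U, hU, hx, fun y hy => Subtype.ext (hUc y hy)⟩⟩, rfl⟩
    · exact Or.inr ⟨t, ht, Equiv.ext fun _ => rfl⟩
  · rintro (⟨s, rfl⟩ | ⟨t, ht, rfl⟩)
    · exact Or.inl ⟨fun x => (s x : Perm (Fin k)),
        isLocal_of_isLocallyConstant S (s.isLocallyConstant.comp Subtype.val),
        fun x => Perm.mem_alternatingGroup.1 (s x).2, Equiv.ext fun _ => rfl⟩
    · exact Or.inr ⟨t, ht, Equiv.ext fun _ => rfl⟩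

/-- Module C. -/
theorem simple : SimpleStatement := by
  intro S hS k hk
  have := continuousConstVAdd S
  have : CompactSpace S.X := isCompact_iff_compactSpace.1 (isClosed_carrier S).isCompact
  have := hS.nonempty
  rw [fullGroup_eq S k]
  refine simple_infinite hk (fun v x h => hS.free x v h) fun U hU ⟨y, hy⟩ x => ?_
  obtain ⟨r, hr⟩ := exists_cyl S hU hy
  obtain ⟨v, hv⟩ := hS.minimal x y r
  exact ⟨v, hr hv⟩

end

end Vale.Agent.P196.Simple
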